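import Vale.Agent.P014T.Rx.One
import Vale.Agent.P014U.St
import Vale.Agent.P014U.Cp.Nn

/-! # P014U, block Rx: the calculus of the reciprocity laws at the prime -/

set_option autoImplicit false
set_option linter.all false

open NumberField
open scoped Classical

noncomputable section

namespace Vale.Agent.P014U.Rx

export Vale.Agent.P014T.Rx (md sI_ne)

open Vale.Agent.P022 (Qb GQ)
open Vale.Agent.P022D.W (dec)
open Vale.Agent.P022E.GW (Ov)
open X4S.Ga (K O mem_O)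
open X4S.Aq
open Vale.Agent.P004F (hq)
open X4F.Rc (hn hn_mul mq mq_eq mq_zero O_nat)
open Vale.Agent.P004M.TE (Pt ga)
open Top (El Rc)
open P014T.Wm (Fx)
open Bt (dd Zl Km)
open Cp (pr ivP Zn cp)
open Lc (Lk)
open Ah (Ind am)
open Ba (Tp)

variable [Pp] {A B : ℤ} {h : El A B} {P : Ideal (𝓞 Qb)} {lg : Fx A B (dec P) →+ K} {m n : ℕ}
  {z z' : GQ → Pt A B} {μ μ' : K} {ι : Qb →+* ℂ_[pp]}

theorem mq_nat (k : ℕ) (u : K) : mq (k * u) = k • mq u := by rw [← map_nsmul, nsmul_eq_mul]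

theorem mq_int (k : ℤ) (u : K) : mq (k * u) = k • mq u := by rw [← map_zsmul, zsmul_eq_mul]

theorem n2 : ‖(pp : K)‖ = (pp : ℝ)⁻¹ := Padic.norm_p

theorem r1 : (1 : ℝ) < pp := Nat.one_lt_cast.2 one_lt

theorem k0 : (pp : K) ≠ 0 := Nat.cast_ne_zero.2 pp_ne

theorem ex_pow (x : K) : ∃ j : ℕ, (pp : K) ^ j * x ∈ O := by
  obtain ⟨j, e⟩ := pow_unbounded_of_one_lt ‖x‖ r1
  refine ⟨j, mem_O.2 ?_⟩
  rw [norm_mul, norm_pow, n2, inv_pow, inv_mul_le_iff₀ (by have := r1; positivity), mul_one]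
  exact e.le

theorem O_pow (j : ℕ) : (pp : K) ^ j ∈ O := by exact_mod_cast O_nat (pp ^ j)

theorem ex_nat (u : ℤ_[pp]) (j : ℕ) : ∃ (a : ℕ) (b : ℤ_[pp]), (u : K) = a + pp ^ j * b := by
  obtain ⟨y, hy⟩ := Ideal.mem_span_singleton.1 (PadicInt.appr_spec j u)
  refine ⟨u.appr j, y, ?_⟩
  have := congrArg PadicInt.Coe.ringHom (sub_eq_iff_eq_add'.1 hy)
  simp only [map_add, map_mul, map_pow, map_natCast] at this
  exact_mod_cast this

theorem Zn.zsmul {D : Subgroup GQ} (q : Zn D n z) (k : ℤ) : Zn D n (k • z) :=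
  .of (zsmul_mem q.mem k) fun g a => by rw [Pi.smul_apply, smul_comm, q.tr g a, zsmul_zero]

theorem Zn.nsmul {D : Subgroup GQ} (q : Zn D n z) (k : ℕ) : Zn D n (k • z) :=
  natCast_zsmul z k ▸ Zn.zsmul q k

/-- the law in terms of the local pairing -/
theorem rc_iff (o : Ov pp P) (q : Zn (dec P) n z) : Rc h P lg m n z μ ↔
    ∀ y, pr (Ki.pr (hq h)) (ivP o) (pp ^ m • y) ⟨z, q.mem⟩ = mq (lg (pp ^ m • y) * μ / (pp : K) ^ n) :=
  ⟨fun r y => by
    obtain ⟨y', e⟩ := (Ki.pr (hq h)).dvp n (pp ^ m • y.1)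
    rw [Cp.pr_eq _ _ _ _ e q, r y y' e],
  fun r y y' e => by rw [← r y, Cp.pr_eq _ _ _ _ e q]⟩

section

variable (o : Ov pp P) (q : Zn (dec P) n z) (r : Rc h P lg m n z μ)
include o q r

theorem rc_add (q' : Zn (dec P) n z') (r' : Rc h P lg m n z' μ') :
    Rc h P lg m n (z + z') (μ + μ') := (rc_iff o (q.add q')).2 fun y => by
  rw [mul_add, add_div, map_add, ← (rc_iff o q).1 r y, ← (rc_iff o q').1 r' y, ← map_add]
  rfl

theorem rc_zsmul (k : ℤ) : Rc h P lg m n (k • z) (k * μ) := (rc_iff o (Zn.zsmul q k)).2 fun y => by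
  rw [mul_left_comm, mul_div_assoc, mq_int, ← (rc_iff o q).1 r y, ← map_zsmul]
  rfl

theorem rc_nsmul (k : ℕ) : Rc h P lg m n (k • z) (k * μ) := by
  simpa only [natCast_zsmul, Int.cast_natCast] using rc_zsmul o q r k

theorem rc_neg : Rc h P lg m n (-z) (-μ) := by simpa using rc_zsmul o q r (-1)

theorem rc_sub (q' : Zn (dec P) n z') (r' : Rc h P lg m n z' μ') :
    Rc h P lg m n (z - z') (μ - μ') := by
  simpa only [sub_eq_add_neg] using rc_add o q r q'.neg (rc_neg o q' r')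

/-- the law only sees the class on the decomposition group modulo the Kummer classes -/
theorem rc_km (q' : Zn (dec P) n z') {t : Pt A B} (e : ∀ g ∈ dec P, z' g - z g = ga g t - t) :
    Rc h P lg m n z' μ := (rc_iff o q').2 fun y => by
  rw [← (rc_iff o q).1 r y, ← sub_eq_zero, ← map_sub]
  exact Cp.pr_km (hq h) o _ _ _ ⟨t, e⟩

theorem rc_congr (q' : Zn (dec P) n z') (e : ∀ g ∈ dec P, z' g = z g) : Rc h P lg m n z' μ :=
  rc_km o q r q' (t := 0) fun g a => by rw [e g a, sub_self, map_zero, sub_self]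

/-- a higher level -/
theorem rc_up (c : ℕ) : Rc h P lg m (n + c) z ((pp : K) ^ c * μ) := (rc_iff o (q.up c)).2 fun y => by
  rw [(rc_iff o q).1 r y, pow_add]
  congr 1
  have := k0
  field_simp

omit o q in
theorem rc_mono {m' : ℕ} (e : m ≤ m') : Rc h P lg m' n z μ := fun y y' k => by
  obtain ⟨c, rfl⟩ := Nat.exists_eq_add_of_le e
  rw [pow_add, mul_smul] at k ⊢
  exact r _ y' k

omit o q in
theorem rc_near (e : ∀ y, lg (pp ^ m • y) * (μ - μ') / (pp : K) ^ n ∈ O) : Rc h P lg m n z μ' :=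
  fun y y' k => (r y y' k).trans (mq_eq.2 (O_of (e y) (by ring)))

omit o q in
theorem rc_uniq (r' : Rc h P lg m n z μ') (y : Fx A B (dec P)) :
    lg (pp ^ m • y) * (μ - μ') / (pp : K) ^ n ∈ O := by
  obtain ⟨y', e⟩ := (Ki.pr (hq h)).dvp n (pp ^ m • y.1)
  exact O_of (mq_eq.1 ((r y y' e).symm.trans (r' y y' e))) (by ring)

end

theorem Zn.down {D : Subgroup GQ} {c : ℕ} (q : Zn D (n + c) z) : Zn D n (pp ^ c • z) :=
  .of (nsmul_mem q.mem _) fun g a => by rw [Pi.smul_apply, ← mul_smul, ← pow_add, q.tr g a]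

/-- a lower level -/
theorem rc_down (o : Ov pp P) {c : ℕ} (q : Zn (dec P) (n + c) z) (r : Rc h P lg m (n + c) z μ) :
    Rc h P lg m n (pp ^ c • z) μ := (rc_iff o (Zn.down q)).2 fun y => by
  rw [(rc_iff o (Zn.nsmul q _)).1 (rc_nsmul o q r (pp ^ c)) y, pow_add]
  congr 1
  push_cast
  have := k0
  field_simp

theorem rc_zero (o : Ov pp P) (q : Zn (dec P) n z) (e : z ∈ Km A B (dec P)) : Rc h P lg m n z 0 :=
  (rc_iff o q).2 fun y => by rw [Cp.pr_km (hq h) o _ _ _ e, mul_zero, zero_div, map_zero]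

section

variable (h) (hι : Ind ι P) (k : Lk ι lg)
include h hι k

/-- the logarithm is bounded, and small points are divisible up to bounded torsion -/
theorem loc : ∃ (τ : ℕ) (b : ℝ), 0 < b ∧ (∀ y, ‖lg y‖ ≤ b) ∧
    ∀ (j : ℕ) w, ‖lg w‖ * (pp : ℝ) ^ j ≤ b → ∃ w', pp ^ τ • w = pp ^ j • w' := by
  obtain ⟨l, y, a, k0, y0, b, c, -⟩ := Lc.two (sI_ne h) (md A B) hι
  obtain rfl := k.uniq a
  obtain ⟨τ, t⟩ := Cp.ft (hq h) hι.ov
  have p := norm_pos_iff.2 y0
  have f : ∀ (j : ℕ) w, ‖lg w‖ * (pp : ℝ) ^ j ≤ ‖lg y‖ → ∃ t ∈ Tp (Fx A B (dec P)), ∃ w', w = t + pp ^ j • w' :=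
    fun j => by
      induction j with
      | zero => exact fun w _ => ⟨0, zero_mem _, w, by simp⟩
      | succ j ih =>
        intro w e
        obtain ⟨s, ⟨i, hs⟩, w, rfl⟩ := c w (not_le.1 fun q => (e.trans q).not_gt
          (lt_mul_of_one_lt_right (p.trans_le q) (one_lt_pow₀ r1 j.succ_ne_zero)))
        have s0 : lg s = 0 := by
          simpa [pp_ne] using congrArg lg hs
        obtain ⟨s', hs', w, rfl⟩ := ih w (by
          rw [map_add, s0, zero_add, map_nsmul, nsmul_eq_mul, norm_mul, n2,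
            pow_succ', mul_mul_mul_comm, inv_mul_cancel₀ (zero_lt_one.trans r1).ne', one_mul] at e
          exact e)
        exact ⟨s + pp • s', add_mem ⟨i, hs⟩ (nsmul_mem hs' pp), w, by
          rw [pow_succ', mul_smul, smul_add, add_assoc]⟩
  refine ⟨τ, _, p, b, fun j w e => ?_⟩
  obtain ⟨s, ⟨i, hs⟩, w, rfl⟩ := f j w e
  exact ⟨pp ^ τ • w, by
    rw [smul_add, smul_comm, show pp ^ τ • s = 0 from
      Subtype.ext (t _ s.2 ⟨i, congrArg Subtype.val hs⟩), zero_add]⟩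

theorem lg_int : ∃ m, ∀ m' y, m ≤ m' → lg (pp ^ m' • y) ∈ O := by
  obtain ⟨-, b, -, e, -⟩ := loc h hι k
  obtain ⟨j, f⟩ := pow_unbounded_of_one_lt b r1
  refine ⟨j, fun m' y a => mem_O.2 ?_⟩
  rw [map_nsmul, nsmul_eq_mul, norm_mul, Nat.cast_pow, norm_pow, n2, inv_pow,
    inv_mul_le_iff₀ (by have := r1; positivity), mul_one]
  exact (e y).trans (f.le.trans (pow_le_pow_right₀ r1.le a))

/-- **from one point to all points** -/
theorem one {R : Fx A B (dec P)} (R0 : lg R ≠ 0) : ∃ m, ∀ (n c : ℕ) z μ R', Zn (dec P) n z →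
    pp ^ n • R' = R.1 → c • Iv.iv P (cp (Ki.wp (hq h)) n (dd A B R') z) = mq (hn n * lg R * μ) →
    Rc h P lg m n (c • z) μ := by
  obtain ⟨τ, b, b0, b1, b2⟩ := loc h hι k
  have o := hι.ov
  have p := norm_pos_iff.2 R0
  obtain ⟨i, hi⟩ := pow_unbounded_of_one_lt (b / ‖lg R‖) r1
  obtain ⟨i', hi'⟩ := pow_unbounded_of_one_lt (‖lg R‖ / b) r1
  refine ⟨τ + i, fun n c z μ R' q e r => (rc_iff o (Zn.nsmul q c)).2 fun y => ?_⟩
  rw [← Cp.pr_eq (Ki.pr (hq h)) (ivP o) R ⟨z, q.mem⟩ e q, ← map_nsmul] at r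
  obtain ⟨j, hj⟩ := ex_pow (lg R * μ)
  obtain ⟨a, v, ha⟩ := ex_nat ⟨pp ^ i * lg y / lg R, by
    rw [norm_div, norm_mul, norm_pow, n2, inv_pow, div_le_one p, inv_mul_le_iff₀ (by have := r1; positivity)]
    exact (b1 y).trans ((div_le_iff₀ p).1 hi.le)⟩ (n + (i' + j))
  have ha : lg (pp ^ i • y - a • R) = pp ^ (n + (i' + j)) * v * lg R := by
    rw [map_sub, map_nsmul, map_nsmul, nsmul_eq_mul, nsmul_eq_mul]
    rw [show ((⟨_, _⟩ : ℤ_[pp]) : K) = pp ^ i * lg y / lg R from rfl, div_eq_iff R0] at ha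
    push_cast
    linear_combination ha
  obtain ⟨w, hw⟩ := b2 n (pp ^ i • y - a • R) (by
    have : ‖(v : K)‖ ≤ 1 := v.2
    have h1 : (pp : ℝ) ^ i' ≤ pp ^ (i' + j) := pow_le_pow_right₀ r1.le le_self_add
    rw [ha, norm_mul, norm_mul, norm_pow, n2, inv_pow, pow_add]
    calc _ = ‖(v : K)‖ * (‖lg R‖ / pp ^ (i' + j)) := by have := r1; field_simp
      _ ≤ 1 * b := by
        gcongr
        rw [div_le_iff₀ (by have := r1; positivity), ← div_le_iff₀' b0]
        exact hi'.le.trans h1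
      _ = b := one_mul b)
  have e1 : pp ^ (τ + i) • y = pp ^ n • w + pp ^ τ • a • R := by
    rw [← hw, ← smul_add, sub_add_cancel, pow_add, mul_smul]
  have e2 : lg (pp ^ (τ + i) • y) = pp ^ τ * (pp ^ (n + (i' + j)) * v * lg R + a * lg R) := by
    rw [← ha, ← nsmul_eq_mul a, ← map_nsmul, ← map_add, sub_add_cancel, pow_add, mul_smul, map_nsmul,
      nsmul_eq_mul]
    push_cast
    rfl
  rw [e2]
  rw [e1, map_add, AddMonoidHom.add_apply, Cp.pr_pow _ _ _ _ (Zn.nsmul q c), zero_add,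
    map_nsmul, map_nsmul, AddMonoidHom.nsmul_apply, AddMonoidHom.nsmul_apply]
  erw [r]
  rw [← mq_nat, ← mq_nat, mq_eq]
  refine O_of (neg_mem (O_mul (O_mul (O_mul (O_pow τ) (O_pow i')) v.2) hj)) ?_
  rw [hn]
  push_cast
  have := k0
  field_simp
  ring

end

end Vale.Agent.P014U.Rx
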